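/-
Row 210 (S0432), layer LP (Laplacian comparison), file 0: what LP NEEDS from the upstream layers GCB (calculus), FO (FO1), GM (GM5).
Architect of the layer: helper785.  Every statement here is now PROVED from the upstream interfaces GC/Ifc, FO/Ifc, GM/Ifc.
-/
import Claimed.Agent.R210.Defs
import Claimed.Agent.R210.CO.Ifc
import Claimed.Agent.R210.GC.Ifc
import Claimed.Agent.R210.FO.Ifc
import Claimed.Agent.R210.GM.Ifc

set_option autoImplicit false
set_option linter.unusedSectionVars false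

open Claims.C0366 Claims.C0366.WeakHessian
open Set Filter MeasureTheory
open scoped ENNReal NNReal Topology

namespace Claimed.Agent.R210.LP.Need

open Claimed.Agent.R210.Defs Claimed.Agent.R210.CO.Ifc

variable {X : Type*} [MetricSpace X] [MeasurableSpace X] [BorelSpace X] [ProperSpace X]
variable {m : Measure X} {K N : ℝ}

/-! ### from GCB / TP -/

/-- (GC-C) compactly supported Lipschitz functions are Sobolev -/
theorem lp_need_lipC (hS : Std m K N) {η : X → ℝ} (hη : LipC η) : Sobolev m η := by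
  exact GC.WG.gc_sob_of_lipC hS.finite hη

/-- (GC-C) `|Dη| ≤ Lip` a.e. -/
theorem lp_need_grad_le_lip (hS : Std m K N) {η : X → ℝ} {L : ℝ≥0} (hη : LipschitzWith L η) :
    ∀ᵐ z ∂m, weakGradient m η z ≤ L := by
  exact GC.WG.gc_wg_le_lip hS.finite hη

/-- the weak gradient is a.e. nonnegative -/
theorem lp_need_grad_nonneg (m : Measure X) (f : X → ℝ) : ∀ᵐ z ∂m, 0 ≤ weakGradient m f z := by
  unfold weakGradient
  split_ifs with h
  · exact (Classical.choose_spec h).1.2.1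
  · exact Filter.Eventually.of_forall fun _ => le_rfl

/-- (TP3) locality: `|Dη| = 0` a.e. on `{η = 0}` -/
theorem lp_need_grad_zero (hS : Std m K N) {η : X → ℝ} (hη : LocalSobolev m η) :
    ∀ᵐ z ∂m, η z = 0 → weakGradient m η z = 0 := by
  exact GC.WG.gc_wg_zero_on_level hS.finite hη 0

/-- (GC-C) `w_x = d(.,x)²/2` is locally Lipschitz with local slope `≤ d(.,x)` -/
theorem lp_need_wfun (hS : Std m K N) (x : X) :
    LocalSobolev m (wfun x) ∧ ∀ᵐ z ∂m, weakGradient m (wfun x) z ≤ dist z x := by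
  exact ⟨GC.WG.gc_ls_of_lipLoc hS.finite (GC.WG.gc_lipLoc_wfun x), GC.WG.gc_wg_wfun_le hS.finite x⟩

/-- (GC-B) Cauchy-Schwarz -/
theorem lp_need_gamma_le (hS : Std m K N) {f g : X → ℝ} (hf : LocalSobolev m f) (hg : LocalSobolev m g) :
    ∀ᵐ z ∂m, |gamma m f g z| ≤ weakGradient m f z * weakGradient m g z := by
  exact GC.Gam.gc_gamma_abs_le hS hf hg

/-- (GC-B) measurability -/
theorem lp_need_gamma_meas (hS : Std m K N) {f g : X → ℝ} (hf : LocalSobolev m f) (hg : LocalSobolev m g) :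
    AEStronglyMeasurable (gamma m f g) m := by
  exact GC.Gam.gc_gamma_aesm f g

/-- (GC-B) chain rule in the first slot for `φ` which is `C¹` on a compact interval containing the range of `f` -/
theorem lp_need_chain (hS : Std m K N) {f w : X → ℝ} (hf : LocalSobolev m f) (hw : LocalSobolev m w) {a b : ℝ}
    (hab : ∀ z, f z ∈ Icc a b) {φ φ' : ℝ → ℝ} (hφ : ∀ y ∈ Icc a b, HasDerivAt φ (φ' y) y)
    (hφ' : ContinuousOn φ' (Icc a b)) :
    LocalSobolev m (fun z => φ (f z)) ∧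
      ∀ᵐ z ∂m, gamma m (fun z => φ (f z)) w z = φ' (f z) * gamma m f w z := by
  have hr : ∀ᵐ z ∂m, f z ∈ Icc a b := Filter.Eventually.of_forall hab
  have hφw : ∀ y ∈ Icc a b, HasDerivWithinAt φ (φ' y) (Icc a b) y := fun y hy => (hφ y hy).hasDerivWithinAt
  exact ⟨GC.WG.gc_ls_comp_on hS.finite hf hr hφw hφ', GC.Gam.gc_gamma_comp_on_left hS hf hw hr hφw hφ'⟩

/-! ### from FO -/

/-- (FO1), in the form "every upper bound `B` of the difference quotients bounds `-∫ Γ(g,a) dμ0`" -/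
theorem lp_need_FO1 (hS : Std m K N) {μ0 : Measure X} {M0 : ℝ≥0} {o : X} {R : ℝ} (h0 : BddDens m μ0 M0 o R)
    {a g : X → ℝ} (ha : LocalSobolev m a) (hg : LocalSobolev m g) {W : ℝ} (hW : 0 ≤ W)
    (haW : ∫ z, (weakGradient m a z) ^ 2 ∂μ0 ≤ W ^ 2)
    {s : ℕ → ℝ} (hs0 : ∀ n, 0 < s n) (hs : Tendsto s atTop (𝓝 0))
    {μ : ℕ → Measure X} {M' : ℝ≥0} (hμ : ∀ n, BddDens m (μ n) M' o R)
    (hW2 : ∀ n, W2sqR μ0 (μ n) ≤ (s n) ^ 2 * W ^ 2)
    (hdec : ∀ n, (s n - (s n) ^ 2 / 2) * W ^ 2 ≤ ∫ z, a z ∂μ0 - ∫ z, a z ∂(μ n))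
    {B : ℝ} (hB : ∀ n, (∫ z, g z ∂(μ n) - ∫ z, g z ∂μ0) / s n ≤ B) :
    -(∫ z, gamma m g a z ∂μ0) ≤ B := by
  have h0' : BddDens m μ0 (max M0 M') o R := FO.Ifc.fo_bdd_mono h0 (le_max_left _ _) le_rfl
  have hμ' : ∀ᶠ n in atTop, BddDens m (μ n) (max M0 M') o R :=
    Filter.Eventually.of_forall fun n => FO.Ifc.fo_bdd_mono (hμ n) (le_max_right _ _) le_rfl
  have key := FO.Ifc.fo_abstract hS h0' hμ' ha hg (sq_nonneg W) haW (Filter.Eventually.of_forall hs0) hs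
    (Filter.Eventually.of_forall hW2) (Filter.Eventually.of_forall hdec)
  apply le_of_forall_pos_le_add
  intro δ hδ
  obtain ⟨n, hn⟩ := (key δ hδ).exists
  linarith [hB n]

/-! ### from GM -/

/-- (GM5) contraction towards the point `x` -/
theorem lp_need_GM5 (hS : Std m K N) {μ0 : Measure X} {M0 : ℝ≥0} {x : X} {R : ℝ} (hR : 0 < R)
    (h0 : BddDens m μ0 M0 x R) {s : ℝ} (hs0 : 0 < s) (hs1 : s ≤ 1 / 2) :
    ∃ (ν : Measure X) (Λ : Measure (X × X)),
      BddDens m ν (Real.toNNReal ((M0 : ℝ) / co_tau K N (1 - s) (2 * R) ^ N)) x R ∧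
      IsCoupling Λ μ0 ν ∧
      (∀ᵐ p ∂Λ, dist p.1 p.2 = s * dist p.1 x ∧ dist p.2 x = (1 - s) * dist p.1 x) ∧
      ∫⁻ z, tauCoeff K N (1 - s) (dist z x) * (μ0.rnDeriv m z) ^ (1 - 1 / N) ∂m ≤ renyiIntegral m ν N := by
  obtain ⟨ν, Λ, hΛ, hd, hν, hren⟩ := GM.Ifc.gm_GM5 hS h0 hR hs0 (by linarith : s < 1)
  refine ⟨ν, Λ, ?_, hΛ, hd, hren⟩
  have ht : 0 ≤ co_tau K N (1 - s) (2 * R) :=
    co_tau_nonneg hS.K_neg hS.one_lt_N (by linarith) (by linarith) (by linarith)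
  have e : GM.Defs.gm_cs K N s (2 * R) M0 = Real.toNNReal ((M0 : ℝ) / co_tau K N (1 - s) (2 * R) ^ N) := by
    unfold GM.Defs.gm_cs
    rw [div_eq_mul_inv, Real.toNNReal_mul M0.coe_nonneg, Real.toNNReal_coe, Real.rpow_neg ht]
  rw [← e]
  exact hν

end Claimed.Agent.R210.LP.Need
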