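/-
Row 210 (S0432), layer LP (Laplacian comparison), file 1: the data of the proof and their elementary properties.
Architect of the layer: helper785.

PROOF OF LP (all files).  `B = closedBall x R`, `v = η + ε`, `β = N/(N-1)`, `α = 1 - 1/N`, `V = ∫_B v^β dm`, `ρ0 = 1_B v^β / V`, `μ0 = ρ0 m`,
`g = -α V^{1/N} v^{-1/(N-1)}` (`= u'(ρ0)` on `B` for `u(y) = -y^α`), `w = wfun x = d(.,x)²/2`, `k = co_k K N`.
For `s = s_n ↓ 0` GM5 gives `ν` (bounded density, concentrated on `B`) and a coupling `Λ` of `(μ0,ν)` contracting towards `x`, with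
`∫ tau(1-s,d_x) ρ0^α ≤ ∫ ρ_ν^α`.
 (Renyi)   `∫_B ρ0^α - ∫_B ρ_ν^α ≤ s ∫_B (1 + k d_x) ρ0^α`      (`1 - s(1+kθ) ≤ tau(1-s,θ)`, layer CO)
 (convex)  `∫ g dν - ∫ g dμ0 ≤ ∫_B ρ0^α - ∫_B ρ_ν^α`             (tangent line of the concave `y^α`)
 (FO1)     `-∫ Γ(g,w) dμ0 ≤ ∫_B (1 + k d_x) ρ0^α`                 (hypotheses of FO1 from `Λ`: file Transport)
 (chain)   `∫ Γ(g,w) dμ0 = (V^{-α}/N) ∫_B Γ(η,w) dm`,  `ρ0^α = V^{-α} v` on `B`
 ⟹ `-∫_B Γ(η,w) ≤ N ∫_B (1 + k d_x)(η + ε)`;  `ε → 0`, `R` large, locality.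
-/
import Claimed.Agent.R210.LP.Need

set_option autoImplicit false
set_option linter.unusedSectionVars false

open Claims.C0366 Claims.C0366.WeakHessian
open Set Filter MeasureTheory
open scoped ENNReal NNReal Topology

namespace Claimed.Agent.R210.LP.Setup

open Claimed.Agent.R210.Defs Claimed.Agent.R210.CO.Ifc Claimed.Agent.R210.LP.Need

variable {X : Type*} [MetricSpace X] [MeasurableSpace X] [BorelSpace X] [ProperSpace X]

/-- standing hypotheses of the `ε`-step -/
structure lp_Hyp (m : Measure X) (K N : ℝ) (η : X → ℝ) (ε : ℝ) (x : X) (R : ℝ) : Prop where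
  std : Std m K N
  lip : LipC η
  nonneg : ∀ z, 0 ≤ η z
  R_pos : 0 < R
  eps_pos : 0 < ε

/-- `V = ∫_B (η+ε)^{N/(N-1)} dm` -/
noncomputable def lp_V (m : Measure X) (N : ℝ) (η : X → ℝ) (ε : ℝ) (x : X) (R : ℝ) : ℝ :=
  ∫ z in Metric.closedBall x R, (η z + ε) ^ (N / (N - 1)) ∂m

/-- `ρ0 = 1_B (η+ε)^{N/(N-1)} / V` -/
noncomputable def lp_rho (m : Measure X) (N : ℝ) (η : X → ℝ) (ε : ℝ) (x : X) (R : ℝ) : X → ℝ :=
  (Metric.closedBall x R).indicator (fun z => (η z + ε) ^ (N / (N - 1)) / lp_V m N η ε x R)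

/-- `μ0 = ρ0 m` -/
noncomputable def lp_mu (m : Measure X) (N : ℝ) (η : X → ℝ) (ε : ℝ) (x : X) (R : ℝ) : Measure X :=
  dens m (lp_rho m N η ε x R)

/-- the function `φ` with `g = φ ∘ η` -/
noncomputable def lp_phi (V N ε : ℝ) (y : ℝ) : ℝ := -(1 - 1 / N) * V ^ (1 / N) * (y + ε) ^ (-(1 / (N - 1)))

/-- its derivative -/
noncomputable def lp_phi' (V N ε : ℝ) (y : ℝ) : ℝ := 1 / N * V ^ (1 / N) * (y + ε) ^ (-(N / (N - 1)))

/-- `g = -(1-1/N) V^{1/N} (η+ε)^{-1/(N-1)}` -/
noncomputable def lp_g (m : Measure X) (N : ℝ) (η : X → ℝ) (ε : ℝ) (x : X) (R : ℝ) (z : X) : ℝ :=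
  lp_phi (lp_V m N η ε x R) N ε (η z)

/-- `W² = ∫ d(.,x)² dμ0` -/
noncomputable def lp_Wsq (m : Measure X) (N : ℝ) (η : X → ℝ) (ε : ℝ) (x : X) (R : ℝ) : ℝ :=
  ∫ z, dist z x ^ 2 ∂(lp_mu m N η ε x R)

variable {m : Measure X} {K N : ℝ} {η : X → ℝ} {ε : ℝ} {x : X} {R : ℝ}

/-- `m` is σ-finite: `X = ⋃ closedBall o n`, each of finite measure (`Std.finite`); if `X` is empty trivial. -/
theorem lp_sigmaFinite (hS : Std m K N) : SigmaFinite m := by
  rcases isEmpty_or_nonempty X with hX | ⟨⟨o⟩⟩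
  · have : m = 0 := Measure.eq_zero_of_isEmpty m
    rw [this]
    infer_instance
  · refine ⟨⟨⟨fun n : ℕ => Metric.closedBall o n, fun _ => trivial, fun n => hS.finite _ Metric.isBounded_closedBall, ?_⟩⟩⟩
    exact Metric.iUnion_closedBall_nat o

/-- `m (closedBall x R) < ∞` (`Std.finite`, `Metric.isBounded_closedBall`) -/
theorem lp_ball_lt_top (hS : Std m K N) (x : X) (R : ℝ) : m (Metric.closedBall x R) < ∞ :=
  hS.finite _ Metric.isBounded_closedBall

/-- `0 < m (closedBall x R)` for `R > 0` (`Std.full` on `ball x R`) -/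
theorem lp_ball_pos (hS : Std m K N) (x : X) {R : ℝ} (hR : 0 < R) : 0 < m (Metric.closedBall x R) :=
  lt_of_lt_of_le (hS.full _ Metric.isOpen_ball ⟨x, Metric.mem_ball_self hR⟩) (measure_mono Metric.ball_subset_closedBall)

/-- a function in `LipC` is continuous -/
theorem lp_continuous (hη : LipC η) : Continuous η := by
  obtain ⟨L, hL⟩ := hη.1
  exact hL.continuous

/-- a function in `LipC` is bounded (continuous with compact support) -/
theorem lp_bounded (hη : LipC η) : ∃ b : ℝ, 0 ≤ b ∧ ∀ z, |η z| ≤ b := by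
  obtain ⟨C, hC⟩ := hη.2.exists_bound_of_continuous (lp_continuous hη)
  refine ⟨max C 0, le_max_right _ _, fun z => ?_⟩
  have := hC z
  rw [Real.norm_eq_abs] at this
  exact this.trans (le_max_left _ _)

/-- `z ↦ (η z + ε)^p` is continuous (base `≥ ε > 0`; `Continuous.rpow_const`) -/
theorem lp_cont_rpow (h : lp_Hyp m K N η ε x R) (p : ℝ) : Continuous (fun z => (η z + ε) ^ p) := by
  refine ((lp_continuous h.lip).add continuous_const).rpow_const fun z => Or.inl ?_
  have h1 := h.nonneg z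
  have h2 := h.eps_pos
  show η z + ε ≠ 0
  linarith

/-- `m` is finite on compact sets -/
theorem lp_finiteCompacts (hS : Std m K N) : IsFiniteMeasureOnCompacts m :=
  ⟨fun _ hK => hS.finite _ hK.isBounded⟩

/-- continuous functions are integrable on closed balls -/
theorem lp_contIntegrableOn (hS : Std m K N) {f : X → ℝ} (hf : Continuous f) (x : X) (R : ℝ) :
    IntegrableOn f (Metric.closedBall x R) m := by
  have := lp_finiteCompacts hS
  exact hf.continuousOn.integrableOn_compact (isCompact_closedBall x R)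

/-- `0 < V`: the integrand is continuous, `≥ ε^β > 0`, `0 < m B < ∞`. -/
theorem lp_V_pos (h : lp_Hyp m K N η ε x R) : 0 < lp_V m N η ε x R := by
  have hS := h.std
  have hc := lp_cont_rpow h (N / (N - 1))
  have hfin := lp_ball_lt_top hS x R
  have hpos := lp_ball_pos hS x h.R_pos
  have hint : IntegrableOn (fun z => (η z + ε) ^ (N / (N - 1))) (Metric.closedBall x R) m :=
    lp_contIntegrableOn hS hc x R
  unfold lp_V
  rw [setIntegral_pos_iff_support_of_nonneg_ae]
  · have : Function.support (fun z => (η z + ε) ^ (N / (N - 1))) = univ := by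
      ext z
      simp only [Function.mem_support, mem_univ, iff_true]
      have h1 := h.nonneg z
      have h2 := h.eps_pos
      exact (Real.rpow_pos_of_pos (by linarith) _).ne'
    rw [this, univ_inter]
    exact hpos
  · refine Filter.Eventually.of_forall fun z => ?_
    have h1 := h.nonneg z
    have h2 := h.eps_pos
    exact (Real.rpow_pos_of_pos (by linarith) _).le
  · exact hint

theorem lp_rho_measurable (h : lp_Hyp m K N η ε x R) : Measurable (lp_rho m N η ε x R) := by
  unfold lp_rho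
  exact ((lp_cont_rpow h (N / (N - 1))).measurable.div_const _).indicator measurableSet_closedBall

theorem lp_rho_nonneg (h : lp_Hyp m K N η ε x R) (z : X) : 0 ≤ lp_rho m N η ε x R z := by
  unfold lp_rho
  refine indicator_nonneg (fun z _ => ?_) z
  have h1 := h.nonneg z
  have h2 := h.eps_pos
  exact div_nonneg (Real.rpow_nonneg (by linarith) _) (lp_V_pos h).le

theorem lp_rho_pos (h : lp_Hyp m K N η ε x R) {z : X} (hz : z ∈ Metric.closedBall x R) : 0 < lp_rho m N η ε x R z := by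
  unfold lp_rho
  rw [indicator_of_mem hz]
  have h1 := h.nonneg z
  have h2 := h.eps_pos
  exact div_pos (Real.rpow_pos_of_pos (by linarith) _) (lp_V_pos h)

/-- `μ0` is a probability measure with bounded density, concentrated on `B`
(`M0 = (b+ε)^β / V`, `b` from `lp_bounded`; total mass `= (∫_B v^β)/V = 1`). -/
theorem lp_bdd0 (h : lp_Hyp m K N η ε x R) : ∃ M0 : ℝ≥0, BddDens m (lp_mu m N η ε x R) M0 x R := by
  have hS := h.std
  have hN := hS.one_lt_N
  have hV := lp_V_pos h
  obtain ⟨b, hb0, hb⟩ := lp_bounded h.lip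
  have hβ : 0 ≤ N / (N - 1) := div_nonneg (by linarith) (by linarith)
  have hmeas := lp_rho_measurable h
  have hle : ∀ z, lp_rho m N η ε x R z ≤ (b + ε) ^ (N / (N - 1)) / lp_V m N η ε x R := by
    intro z
    have hM : 0 ≤ (b + ε) ^ (N / (N - 1)) / lp_V m N η ε x R :=
      div_nonneg (Real.rpow_nonneg (by linarith [h.eps_pos]) _) hV.le
    unfold lp_rho
    refine indicator_le' (fun z _ => ?_) (fun _ _ => hM) z
    apply div_le_div_of_nonneg_right _ hV.le
    apply Real.rpow_le_rpow (by linarith [h.nonneg z, h.eps_pos]) _ hβ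
    linarith [(abs_le.mp (hb z)).2]
  have hint : Integrable (lp_rho m N η ε x R) m := by
    unfold lp_rho
    have h1 : IntegrableOn (fun z => (η z + ε) ^ (N / (N - 1)) / lp_V m N η ε x R) (Metric.closedBall x R) m :=
      (lp_contIntegrableOn hS (lp_cont_rpow h (N / (N - 1))) x R).div_const _
    exact h1.integrable_indicator measurableSet_closedBall
  have hone : ∫ z, lp_rho m N η ε x R z ∂m = 1 := by
    unfold lp_rho
    rw [integral_indicator measurableSet_closedBall, integral_div]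
    exact div_self hV.ne'
  refine ⟨Real.toNNReal ((b + ε) ^ (N / (N - 1)) / lp_V m N η ε x R), ⟨⟨?_⟩, ?_, ?_⟩⟩
  · unfold lp_mu dens
    rw [withDensity_apply _ MeasurableSet.univ, Measure.restrict_univ,
      ← ofReal_integral_eq_lintegral_ofReal hint (Filter.Eventually.of_forall (lp_rho_nonneg h)), hone,
      ENNReal.ofReal_one]
  · unfold lp_mu dens
    rw [← withDensity_const]
    refine withDensity_mono (Filter.Eventually.of_forall fun z => ?_)
    exact ENNReal.ofReal_le_ofReal (hle z)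
  · unfold lp_mu dens
    rw [withDensity_apply _ measurableSet_closedBall.compl]
    rw [setLIntegral_congr_fun (g := fun _ => 0) measurableSet_closedBall.compl]
    · simp
    · intro z hz
      simp only [lp_rho]
      rw [indicator_of_notMem hz, ENNReal.ofReal_zero]

/-- `Measure.rnDeriv_withDensity` (needs `lp_sigmaFinite`, `lp_rho_measurable`) -/
theorem lp_rnDeriv (h : lp_Hyp m K N η ε x R) :
    (lp_mu m N η ε x R).rnDeriv m =ᵐ[m] fun z => ENNReal.ofReal (lp_rho m N η ε x R z) := by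
  have := lp_sigmaFinite h.std
  unfold lp_mu dens
  exact Measure.rnDeriv_withDensity m (lp_rho_measurable h).ennreal_ofReal

/-- integrals against `μ0` (`integral_withDensity_eq_integral_toReal_smul`, then `integral_indicator`); no integrability needed -/
theorem lp_integral_mu (h : lp_Hyp m K N η ε x R) (f : X → ℝ) :
    ∫ z, f z ∂(lp_mu m N η ε x R) = ∫ z in Metric.closedBall x R, f z * lp_rho m N η ε x R z ∂m := by
  unfold lp_mu dens
  rw [integral_withDensity_eq_integral_toReal_smul (lp_rho_measurable h).ennreal_ofReal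
    (Filter.Eventually.of_forall fun _ => ENNReal.ofReal_lt_top)]
  rw [setIntegral_eq_integral_of_forall_compl_eq_zero]
  · refine integral_congr_ae (Filter.Eventually.of_forall fun z => ?_)
    simp only [smul_eq_mul]
    rw [ENNReal.toReal_ofReal (lp_rho_nonneg h z), mul_comm]
  · intro z hz
    simp only [lp_rho]
    rw [indicator_of_notMem hz, mul_zero]

/-- `ρ0^α = V^{-α} (η+ε)` on `B` (`(v^β)^α = v` since `β α = 1`) -/
theorem lp_rho_rpow (h : lp_Hyp m K N η ε x R) {z : X} (hz : z ∈ Metric.closedBall x R) :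
    lp_rho m N η ε x R z ^ (1 - 1 / N) = lp_V m N η ε x R ^ (-(1 - 1 / N)) * (η z + ε) := by
  have hN := h.std.one_lt_N
  have hN0 : N ≠ 0 := by linarith
  have hN1 : N - 1 ≠ 0 := by linarith
  have hV := lp_V_pos h
  have hv : 0 < η z + ε := by linarith [h.nonneg z, h.eps_pos]
  unfold lp_rho
  rw [indicator_of_mem hz, Real.div_rpow (Real.rpow_nonneg hv.le _) hV.le, ← Real.rpow_mul hv.le,
    Real.rpow_neg hV.le]
  have e : N / (N - 1) * (1 - 1 / N) = 1 := by field_simp
  rw [e, Real.rpow_one]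
  ring

/-- `g = -α ρ0^{α-1}` on `B` -/
theorem lp_g_eq (h : lp_Hyp m K N η ε x R) {z : X} (hz : z ∈ Metric.closedBall x R) :
    lp_g m N η ε x R z = -((1 - 1 / N) * lp_rho m N η ε x R z ^ ((1 - 1 / N) - 1)) := by
  have hN := h.std.one_lt_N
  have hN0 : N ≠ 0 := by linarith
  have hN1 : N - 1 ≠ 0 := by linarith
  have hV := lp_V_pos h
  have hv : 0 < η z + ε := by linarith [h.nonneg z, h.eps_pos]
  unfold lp_g lp_phi lp_rho
  rw [indicator_of_mem hz, Real.div_rpow (Real.rpow_nonneg hv.le _) hV.le, ← Real.rpow_mul hv.le]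
  have e : N / (N - 1) * (1 - 1 / N - 1) = -(1 / (N - 1)) := by field_simp; ring
  have e2 : (1 - 1 / N - 1) = -(1 / N) := by ring
  rw [e, e2, Real.rpow_neg hV.le (1 / N)]
  field_simp

/-- `φ'(η) ρ0 = V^{-α}/N` on `B` -/
theorem lp_phi'_mul_rho (h : lp_Hyp m K N η ε x R) {z : X} (hz : z ∈ Metric.closedBall x R) :
    lp_phi' (lp_V m N η ε x R) N ε (η z) * lp_rho m N η ε x R z = lp_V m N η ε x R ^ (-(1 - 1 / N)) / N := by
  have hN := h.std.one_lt_N
  have hN0 : N ≠ 0 := by linarith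
  have hV := lp_V_pos h
  have hv : 0 < η z + ε := by linarith [h.nonneg z, h.eps_pos]
  unfold lp_phi' lp_rho
  rw [indicator_of_mem hz, Real.rpow_neg hv.le]
  have hp : 0 < (η z + ε) ^ (N / (N - 1)) := Real.rpow_pos_of_pos hv _
  have e : lp_V m N η ε x R ^ (-(1 - 1 / N)) = lp_V m N η ε x R ^ (1 / N) / lp_V m N η ε x R := by
    have : -(1 - 1 / N) = 1 / N - 1 := by ring
    rw [this, Real.rpow_sub hV, Real.rpow_one]
  rw [e]
  field_simp

/-- derivative of `φ` at `y ≥ 0` (`Real.hasDerivAt_rpow_const`, `y + ε > 0`; `(1-1/N)/(N-1) = 1/N`, `-1/(N-1) - 1 = -N/(N-1)`) -/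
theorem lp_phi_hasDerivAt {V : ℝ} (hN : 1 < N) (hε : 0 < ε) {y : ℝ} (hy : 0 ≤ y) :
    HasDerivAt (lp_phi V N ε) (lp_phi' V N ε y) y := by
  have hN0 : N ≠ 0 := by linarith
  have hN1 : N - 1 ≠ 0 := by linarith
  have hv : y + ε ≠ 0 := by linarith
  have h1 : HasDerivAt (fun y : ℝ => y + ε) 1 y := (hasDerivAt_id y).add_const ε
  have h2 := (h1.rpow_const (p := -(1 / (N - 1))) (Or.inl hv)).const_mul (-(1 - 1 / N) * V ^ (1 / N))
  have e : -(1 - 1 / N) * V ^ (1 / N) * (1 * -(1 / (N - 1)) * (y + ε) ^ (-(1 / (N - 1)) - 1)) = lp_phi' V N ε y := by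
    unfold lp_phi'
    have e1 : -(1 / (N - 1)) - 1 = -(N / (N - 1)) := by field_simp; ring
    rw [e1]
    field_simp
  rw [e] at h2
  exact h2

theorem lp_phi'_continuousOn {V : ℝ} (hε : 0 < ε) (b : ℝ) : ContinuousOn (lp_phi' V N ε) (Icc 0 b) := by
  unfold lp_phi'
  refine continuousOn_const.mul ?_
  refine (continuousOn_id.add continuousOn_const).rpow_const fun y hy => Or.inl ?_
  have := hy.1
  show y + ε ≠ 0
  linarith

/-- `g` is continuous -/
theorem lp_g_continuous (h : lp_Hyp m K N η ε x R) : Continuous (lp_g m N η ε x R) := by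
  unfold lp_g lp_phi
  exact continuous_const.mul (lp_cont_rpow h _)

end Claimed.Agent.R210.LP.Setup
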