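/-
Row 210 (S0432), layer LP (Laplacian comparison), file 4: chain rule, integrability and locality of `Γ(η, w_x)`.
Architect of the layer: helper785.  Notation and the whole proof: header of LP/Setup.lean.
-/
import Claimed.Agent.R210.LP.Setup

set_option autoImplicit false
set_option linter.unusedSectionVars false

open Claims.C0366 Claims.C0366.WeakHessian
open Set Filter MeasureTheory
open scoped ENNReal NNReal Topology

namespace Claimed.Agent.R210.LP.Chain

open Claimed.Agent.R210.Defs Claimed.Agent.R210.CO.Ifc Claimed.Agent.R210.LP.Need Claimed.Agent.R210.LP.Setup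

variable {X : Type*} [MetricSpace X] [MeasurableSpace X] [BorelSpace X] [ProperSpace X]
variable {m : Measure X} {K N : ℝ} {η : X → ℝ} {ε : ℝ} {x : X} {R : ℝ}

/-- `lp_need_chain` with `f = η`, `[a,b] = [0,b]` (`lp_bounded`), `φ = lp_phi V N ε` (`lp_phi_hasDerivAt`, `lp_phi'_continuousOn`) -/
theorem lp_g_chain (h : lp_Hyp m K N η ε x R) :
    LocalSobolev m (lp_g m N η ε x R) ∧
      ∀ᵐ z ∂m, gamma m (lp_g m N η ε x R) (wfun x) z
        = lp_phi' (lp_V m N η ε x R) N ε (η z) * gamma m η (wfun x) z := by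
  obtain ⟨b, _, hb⟩ := lp_bounded h.lip
  have hf : LocalSobolev m η := (lp_need_lipC h.std h.lip).2.1
  have hw : LocalSobolev m (wfun x) := (lp_need_wfun h.std x).1
  exact lp_need_chain h.std hf hw (a := 0) (b := b)
    (fun z => ⟨h.nonneg z, (le_abs_self _).trans (hb z)⟩)
    (φ := lp_phi (lp_V m N η ε x R) N ε) (φ' := lp_phi' (lp_V m N η ε x R) N ε)
    (fun y hy => lp_phi_hasDerivAt h.std.one_lt_N h.eps_pos hy.1) (lp_phi'_continuousOn h.eps_pos b)

/-- **(chain)**: `lp_integral_mu`, `lp_g_chain`, `lp_phi'_mul_rho`, `integral_const_mul` (no integrability needed: `setIntegral_congr_ae`). -/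
theorem lp_chain (h : lp_Hyp m K N η ε x R) :
    ∫ z, gamma m (lp_g m N η ε x R) (wfun x) z ∂(lp_mu m N η ε x R)
      = lp_V m N η ε x R ^ (-(1 - 1 / N)) / N * ∫ z in Metric.closedBall x R, gamma m η (wfun x) z ∂m := by
  rw [lp_integral_mu h]
  have hc := (lp_g_chain h).2
  have key : ∫ z in Metric.closedBall x R, gamma m (lp_g m N η ε x R) (wfun x) z * lp_rho m N η ε x R z ∂m
      = ∫ z in Metric.closedBall x R,
          lp_V m N η ε x R ^ (-(1 - 1 / N)) / N * gamma m η (wfun x) z ∂m := by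
    refine setIntegral_congr_ae Metric.isClosed_closedBall.measurableSet ?_
    filter_upwards [hc] with z hz hzB
    rw [hz, ← lp_phi'_mul_rho h hzB]
    ring
  rw [key, integral_const_mul]

/-- `Γ(η,w_x) = 0` a.e. on `{η = 0}` (`lp_need_gamma_le`, `lp_need_grad_zero`) -/
theorem lp_gamma_zero (hS : Std m K N) (hη : LipC η) (x : X) :
    ∀ᵐ z ∂m, η z = 0 → gamma m η (wfun x) z = 0 := by
  have hηL : LocalSobolev m η := (lp_need_lipC hS hη).2.1
  filter_upwards [lp_need_gamma_le hS hηL (lp_need_wfun hS x).1, lp_need_grad_zero hS hηL] with z h1 h2 hz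
  rw [h2 hz, zero_mul] at h1
  exact abs_eq_zero.1 (le_antisymm h1 (abs_nonneg _))

/-- if `η = 0` outside `B` then `∫_B Γ(η,w_x) = ∫ Γ(η,w_x)` (`lp_gamma_zero`, `setIntegral_eq_integral_of_ae_compl_eq_zero`) -/
theorem lp_setIntegral_gamma (hS : Std m K N) (hη : LipC η) (x : X) {R : ℝ} (hR : ∀ z, R < dist z x → η z = 0) :
    ∫ z in Metric.closedBall x R, gamma m η (wfun x) z ∂m = ∫ z, gamma m η (wfun x) z ∂m := by
  apply setIntegral_eq_integral_of_ae_compl_eq_zero
  filter_upwards [lp_gamma_zero hS hη x] with z hz hzB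
  apply hz
  apply hR
  simpa [Metric.mem_closedBall] using hzB

/-- `Γ(η,w_x)` is integrable: measurable (`lp_need_gamma_meas`), `|Γ| ≤ L d_x` a.e., `= 0` a.e. outside the (bounded) support. -/
theorem lp_gamma_integrable (hS : Std m K N) (hη : LipC η) (x : X) : Integrable (gamma m η (wfun x)) m := by
  have hηL : LocalSobolev m η := (lp_need_lipC hS hη).2.1
  obtain ⟨L, hL⟩ := hη.1
  obtain ⟨R, hR⟩ := hη.2.isCompact.isBounded.subset_closedBall x
  have hzero : ∀ z, z ∉ Metric.closedBall x R → η z = 0 := fun z hz =>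
    image_eq_zero_of_notMem_tsupport (fun h => hz (hR h))
  have hint : Integrable ((Metric.closedBall x R).indicator (fun _ : X => (L : ℝ) * R)) m := by
    rw [integrable_indicator_iff Metric.isClosed_closedBall.measurableSet]
    exact integrableOn_const (hS.finite _ Metric.isBounded_closedBall).ne
  refine hint.mono' (lp_need_gamma_meas hS hηL (lp_need_wfun hS x).1) ?_
  filter_upwards [lp_need_gamma_le hS hηL (lp_need_wfun hS x).1, lp_gamma_zero hS hη x,
    lp_need_grad_le_lip hS hL, (lp_need_wfun hS x).2, lp_need_grad_nonneg m η,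
    lp_need_grad_nonneg m (wfun x)] with z h1 h2 h3 h4 h5 h6
  by_cases hz : z ∈ Metric.closedBall x R
  · rw [indicator_of_mem hz, Real.norm_eq_abs]
    refine h1.trans (mul_le_mul h3 (h4.trans (Metric.mem_closedBall.1 hz)) h6 L.2)
  · rw [indicator_of_notMem hz, h2 (hzero z hz), norm_zero]

end Claimed.Agent.R210.LP.Chain
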