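/-
Row 210 (S0432), layer LP (Laplacian comparison), file 2: the two inequalities for the Renyi functional.
Architect of the layer: helper785.  Notation and the whole proof: header of LP/Setup.lean.
-/
import Claimed.Agent.R210.LP.Setup

set_option autoImplicit false
set_option linter.unusedSectionVars false

open Claims.C0366 Claims.C0366.WeakHessian
open Set Filter MeasureTheory
open scoped ENNReal NNReal Topology

namespace Claimed.Agent.R210.LP.Renyi

open Claimed.Agent.R210.Defs Claimed.Agent.R210.CO.Ifc Claimed.Agent.R210.LP.Need Claimed.Agent.R210.LP.Setup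

variable {X : Type*} [MetricSpace X] [MeasurableSpace X] [BorelSpace X] [ProperSpace X]
variable {m : Measure X} {K N : ℝ} {η : X → ℝ} {ε : ℝ} {x : X} {R : ℝ}

/-- tangent line of the concave function `y ↦ y^α`, `0 < α ≤ 1`: `b^α ≤ a^α + α a^{α-1} (b - a)` for `a > 0`, `b ≥ 0`.
Proof: `b = a (1 + t)`, `t = b/a - 1 ≥ -1`, `Real.rpow_one_add_le_one_add_mul_self` : `(1+t)^α ≤ 1 + α t`; multiply by `a^α`. -/
theorem lp_tangent {α a b : ℝ} (hα0 : 0 ≤ α) (hα1 : α ≤ 1) (ha : 0 < a) (hb : 0 ≤ b) :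
    b ^ α ≤ a ^ α + α * a ^ (α - 1) * (b - a) := by
  have ht : -1 ≤ b / a - 1 := by
    have : 0 ≤ b / a := div_nonneg hb ha.le
    linarith
  have h1 := rpow_one_add_le_one_add_mul_self ht hα0 hα1
  have h2 : 1 + (b / a - 1) = b / a := by ring
  rw [h2, Real.div_rpow hb ha.le] at h1
  have hapos : 0 < a ^ α := Real.rpow_pos_of_pos ha α
  rw [div_le_iff₀ hapos] at h1
  have h3 : a ^ (α - 1) = a ^ α / a := by
    rw [Real.rpow_sub ha, Real.rpow_one]
  rw [h3]
  have h4 : (1 + α * (b / a - 1)) * a ^ α = a ^ α + α * (a ^ α / a) * (b - a) := by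
    field_simp
  linarith

/-! ### densities of a measure `ν` with `BddDens m ν M' x R` -/

/-- `ν ≪ m` -/
theorem lp_ac {ν : Measure X} {M' : ℝ≥0} (hν : BddDens m ν M' x R) : ν ≪ m := by
  exact Measure.absolutelyContinuous_of_le_smul hν.le

/-- `rho m ν` is measurable, `0 ≤ rho m ν`, a.e. `≤ M'`, a.e. `= 0` outside `B`
(`Measure.rnDeriv_le_one`-type argument: `ν ≤ M' • m` ⟹ `ν.rnDeriv m ≤ M'` a.e.; `ν Bᶜ = 0 = ∫_{Bᶜ} rnDeriv`). -/
theorem lp_rho_nu (hS : Std m K N) {ν : Measure X} {M' : ℝ≥0} (hν : BddDens m ν M' x R) :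
    Measurable (rho m ν) ∧ (∀ z, 0 ≤ rho m ν z) ∧ (∀ᵐ z ∂m, rho m ν z ≤ M') ∧
      (∀ᵐ z ∂m, z ∉ Metric.closedBall x R → rho m ν z = 0) := by
  have : SigmaFinite m := lp_sigmaFinite hS
  refine ⟨(Measure.measurable_rnDeriv ν m).ennreal_toReal, fun z => ENNReal.toReal_nonneg, ?_, ?_⟩
  · have h1 : ν.rnDeriv m ≤ᵐ[m] fun _ => (M' : ℝ≥0∞) := by
      refine ae_le_of_forall_setLIntegral_le_of_sigmaFinite (Measure.measurable_rnDeriv ν m) ?_
      intro s hs _
      calc ∫⁻ z in s, ν.rnDeriv m z ∂m ≤ ν s := Measure.setLIntegral_rnDeriv_le s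
        _ ≤ ((M' : ℝ≥0∞) • m) s := hν.le s
        _ = ∫⁻ _ in s, (M' : ℝ≥0∞) ∂m := by
            rw [setLIntegral_const]; rfl
    filter_upwards [h1] with z hz
    have := ENNReal.toReal_mono ENNReal.coe_ne_top hz
    simpa [rho] using this
  · have hms : MeasurableSet (Metric.closedBall x R)ᶜ := Metric.isClosed_closedBall.measurableSet.compl
    have h0 : ∫⁻ z in (Metric.closedBall x R)ᶜ, ν.rnDeriv m z ∂m = 0 :=
      le_antisymm ((Measure.setLIntegral_rnDeriv_le _).trans hν.conc.le) zero_le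
    rw [setLIntegral_eq_zero_iff hms (Measure.measurable_rnDeriv ν m)] at h0
    filter_upwards [h0] with z hz hzn
    simp [rho, hz hzn]

/-- integrals against `ν` (`ν = m.withDensity (ν.rnDeriv m)`, `integral_withDensity_eq_integral_toReal_smul`, then restrict to `B` by `lp_rho_nu`) -/
theorem lp_integral_nu (hS : Std m K N) {ν : Measure X} {M' : ℝ≥0} (hν : BddDens m ν M' x R) (f : X → ℝ) :
    ∫ z, f z ∂ν = ∫ z in Metric.closedBall x R, f z * rho m ν z ∂m := by
  have : SigmaFinite m := lp_sigmaFinite hS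
  have : IsProbabilityMeasure ν := hν.prob
  obtain ⟨_, _, _, hout⟩ := lp_rho_nu hS hν
  have h1 : ∫ z, f z ∂ν = ∫ z, f z ∂(m.withDensity (ν.rnDeriv m)) := by
    rw [Measure.withDensity_rnDeriv_eq ν m (lp_ac hν)]
  rw [h1, integral_withDensity_eq_integral_toReal_smul (Measure.measurable_rnDeriv ν m)
    (Measure.rnDeriv_lt_top ν m) f]
  have h2 : ∫ z in Metric.closedBall x R, f z * rho m ν z ∂m = ∫ z, f z * rho m ν z ∂m := by
    refine setIntegral_eq_integral_of_ae_compl_eq_zero ?_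
    filter_upwards [hout] with z hz hzB
    rw [hz hzB, mul_zero]
  rw [h2]
  refine integral_congr_ae (Eventually.of_forall fun z => ?_)
  show (ν.rnDeriv m z).toReal • f z = f z * (ν.rnDeriv m z).toReal
  rw [smul_eq_mul, mul_comm]

/-- the frozen Renyi integral is the real integral over `B` (`α = 1 - 1/N > 0`, so `0^α = 0` outside `B`; integrand bounded by `M'^α` on a set of finite measure) -/
theorem lp_renyi_eq (hS : Std m K N) {ν : Measure X} {M' : ℝ≥0} (hν : BddDens m ν M' x R) :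
    renyiIntegral m ν N = ENNReal.ofReal (∫ z in Metric.closedBall x R, rho m ν z ^ (1 - 1 / N) ∂m) := by
  have : SigmaFinite m := lp_sigmaFinite hS
  have : IsProbabilityMeasure ν := hν.prob
  obtain ⟨hmeas, hnn, hle, hout⟩ := lp_rho_nu hS hν
  have hN : 1 < N := hS.one_lt_N
  have hα : 0 < 1 - 1 / N := by
    have : 1 / N < 1 := by
      rw [div_lt_one (by linarith)]
      exact hN
    linarith
  have hmα : Measurable (fun z => rho m ν z ^ (1 - 1 / N)) := hmeas.pow_const _
  have hint : IntegrableOn (fun z => rho m ν z ^ (1 - 1 / N)) (Metric.closedBall x R) m := by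
    refine Measure.integrableOn_of_bounded (M := (M' : ℝ) ^ (1 - 1 / N)) (lp_ball_lt_top hS x R).ne
      hmα.aestronglyMeasurable ?_
    refine ae_restrict_of_ae ?_
    filter_upwards [hle] with z hz
    rw [Real.norm_eq_abs, abs_of_nonneg (Real.rpow_nonneg (hnn z) _)]
    exact Real.rpow_le_rpow (hnn z) hz hα.le
  rw [ofReal_integral_eq_lintegral_ofReal hint (Eventually.of_forall fun z => Real.rpow_nonneg (hnn z) _),
    ← lintegral_indicator Metric.isClosed_closedBall.measurableSet]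
  unfold renyiIntegral
  refine lintegral_congr_ae ?_
  filter_upwards [Measure.rnDeriv_lt_top ν m, hout] with z hz hzout
  have e1 : ν.rnDeriv m z = ENNReal.ofReal (rho m ν z) := (ENNReal.ofReal_toReal hz.ne).symm
  by_cases hzB : z ∈ Metric.closedBall x R
  · rw [indicator_of_mem hzB, e1, ENNReal.ofReal_rpow_of_nonneg (hnn z) hα.le]
  · rw [indicator_of_notMem hzB, e1, hzout hzB, ENNReal.ofReal_zero, ENNReal.zero_rpow_of_pos hα]

/-- integrability on `B` of a measurable function bounded a.e. on `B` -/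
theorem lp_integrableOn_of_bdd (hS : Std m K N) {f : X → ℝ} (hf : AEStronglyMeasurable f m) {C : ℝ}
    (hC : ∀ᵐ z ∂m, z ∈ Metric.closedBall x R → |f z| ≤ C) : IntegrableOn f (Metric.closedBall x R) m := by
  have hball : m (Metric.closedBall x R) < ∞ := lp_ball_lt_top hS x R
  have hms : MeasurableSet (Metric.closedBall x R) := Metric.isClosed_closedBall.measurableSet
  refine Measure.integrableOn_of_bounded (M := C) hball.ne hf ?_
  rw [ae_restrict_iff' hms]
  filter_upwards [hC] with z hz hzB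
  rw [Real.norm_eq_abs]
  exact hz hzB

/-- **(Renyi)**.  By `lp_rnDeriv`, `co_tau_eq`, `co_tau_ge_lin`: a.e. on `B`
`ofReal ((1 - s (1 + k d_x)) ρ0^α) ≤ tauCoeff K N (1-s) d_x * (rnDeriv μ0)^α`;  for integrable `f`: `∫_B f ≤ (∫⁻_B ofReal f).toReal`;  right side: `lp_renyi_eq`. -/
theorem lp_renyi (h : lp_Hyp m K N η ε x R) {s : ℝ} (hs0 : 0 < s) (hs1 : s ≤ 1 / 2) {ν : Measure X} {M' : ℝ≥0}
    (hν : BddDens m ν M' x R)
    (hren : ∫⁻ z, tauCoeff K N (1 - s) (dist z x) * ((lp_mu m N η ε x R).rnDeriv m z) ^ (1 - 1 / N) ∂m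
      ≤ renyiIntegral m ν N) :
    ∫ z in Metric.closedBall x R, lp_rho m N η ε x R z ^ (1 - 1 / N) ∂m
        - ∫ z in Metric.closedBall x R, rho m ν z ^ (1 - 1 / N) ∂m
      ≤ s * ∫ z in Metric.closedBall x R, (1 + co_k K N * dist z x) * lp_rho m N η ε x R z ^ (1 - 1 / N) ∂m := by
  have hS := h.std
  have hN : 1 < N := hS.one_lt_N
  have hK : K < 0 := hS.K_neg
  have hα : 0 ≤ 1 - 1 / N := by
    have : 1 / N ≤ 1 := by
      rw [div_le_one (by linarith)]; exact hN.le
    linarith
  have hk := co_k_pos hK hN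
  set B := Metric.closedBall x R with hB
  set A : X → ℝ := fun z => lp_rho m N η ε x R z ^ (1 - 1 / N) with hA
  have hA0 : ∀ z, 0 ≤ A z := fun z => Real.rpow_nonneg (lp_rho_nonneg h z) _
  have hAm : Measurable A := (lp_rho_measurable h).pow_const _
  obtain ⟨b, hb0, hb⟩ := lp_bounded h.lip
  have hV := lp_V_pos h
  set c : ℝ := lp_V m N η ε x R ^ (-(1 - 1 / N)) with hc
  have hc0 : 0 ≤ c := Real.rpow_nonneg hV.le _
  have hAb : ∀ z ∈ B, |A z| ≤ c * (b + ε) := by
    intro z hz
    rw [abs_of_nonneg (hA0 z)]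
    show lp_rho m N η ε x R z ^ (1 - 1 / N) ≤ _
    rw [lp_rho_rpow h hz]
    apply mul_le_mul_of_nonneg_left _ hc0
    have := hb z
    have := le_abs_self (η z)
    linarith
  have hAi : IntegrableOn A B m :=
    lp_integrableOn_of_bdd hS hAm.aestronglyMeasurable (Eventually.of_forall hAb)
  have hdm : Measurable (fun z : X => 1 + co_k K N * dist z x) :=
    measurable_const.add (measurable_const.mul (measurable_id.dist measurable_const))
  have hDi : IntegrableOn (fun z => (1 + co_k K N * dist z x) * A z) B m := by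
    refine lp_integrableOn_of_bdd hS (hdm.mul hAm).aestronglyMeasurable
      (C := (1 + co_k K N * R) * (c * (b + ε))) (Eventually.of_forall ?_)
    intro z hz
    have hd : dist z x ≤ R := Metric.mem_closedBall.1 hz
    have hd0 : 0 ≤ dist z x := dist_nonneg
    rw [abs_mul]
    apply mul_le_mul _ (hAb z hz) (abs_nonneg _) (by nlinarith [h.R_pos])
    rw [abs_of_nonneg (by nlinarith)]
    nlinarith
  set f : X → ℝ := fun z => (1 - s * (1 + dist z x * co_k K N)) * A z with hf
  have hfe : f = fun z => A z - s * ((1 + co_k K N * dist z x) * A z) := by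
    funext z
    simp only [hf]
    ring
  have hfi : IntegrableOn f B m := by
    rw [hfe]
    exact hAi.sub (hDi.const_mul s)
  have hfint : ∫ z in B, f z ∂m = ∫ z in B, A z ∂m - s * ∫ z in B, (1 + co_k K N * dist z x) * A z ∂m := by
    rw [hfe, integral_sub hAi (hDi.const_mul s), integral_const_mul]
  have h1 : ∫ z in B, f z ∂m ≤ (∫⁻ z in B, ENNReal.ofReal (f z) ∂m).toReal := by
    rw [integral_eq_lintegral_pos_part_sub_lintegral_neg_part hfi]
    have : 0 ≤ (∫⁻ z in B, ENNReal.ofReal (-f z) ∂m).toReal := ENNReal.toReal_nonneg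
    linarith
  have h2 : ∫⁻ z in B, ENNReal.ofReal (f z) ∂m
      ≤ ∫⁻ z in B, tauCoeff K N (1 - s) (dist z x) * ((lp_mu m N η ε x R).rnDeriv m z) ^ (1 - 1 / N) ∂m := by
    apply lintegral_mono_ae
    have := ae_restrict_of_ae (s := B) (lp_rnDeriv h)
    filter_upwards [this] with z hz
    rw [hz, co_tau_eq hK hN (by linarith) (by linarith), ENNReal.ofReal_rpow_of_nonneg (lp_rho_nonneg h z) hα,
      ← ENNReal.ofReal_mul' (Real.rpow_nonneg (lp_rho_nonneg h z) _)]
    apply ENNReal.ofReal_le_ofReal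
    exact mul_le_mul_of_nonneg_right (co_tau_ge_lin hK hN hs0.le (by linarith) dist_nonneg) (hA0 z)
  have h3 : ∫⁻ z in B, ENNReal.ofReal (f z) ∂m
      ≤ ENNReal.ofReal (∫ z in B, rho m ν z ^ (1 - 1 / N) ∂m) := by
    rw [← lp_renyi_eq hS hν]
    exact h2.trans ((setLIntegral_le_lintegral _ _).trans hren)
  have h4 : 0 ≤ ∫ z in B, rho m ν z ^ (1 - 1 / N) ∂m :=
    integral_nonneg (fun z => Real.rpow_nonneg ENNReal.toReal_nonneg _)
  have h5 : (∫⁻ z in B, ENNReal.ofReal (f z) ∂m).toReal ≤ ∫ z in B, rho m ν z ^ (1 - 1 / N) ∂m := by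
    have := ENNReal.toReal_mono ENNReal.ofReal_ne_top h3
    rwa [ENNReal.toReal_ofReal h4] at this
  have h6 := h1.trans h5
  rw [hfint] at h6
  linarith

/-- **(convex)**.  `lp_integral_nu`, `lp_integral_mu`; pointwise on `B`: `g (ρ_ν - ρ0) ≤ ρ0^α - ρ_ν^α` by `lp_g_eq` and `lp_tangent` (`a = ρ0 > 0`, `b = ρ_ν ≥ 0`);
all functions are bounded and measurable on `B` (`lp_integrableOn_of_bdd`). -/
theorem lp_convex (h : lp_Hyp m K N η ε x R) {ν : Measure X} {M' : ℝ≥0} (hν : BddDens m ν M' x R) :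
    ∫ z, lp_g m N η ε x R z ∂ν - ∫ z, lp_g m N η ε x R z ∂(lp_mu m N η ε x R)
      ≤ ∫ z in Metric.closedBall x R, lp_rho m N η ε x R z ^ (1 - 1 / N) ∂m
        - ∫ z in Metric.closedBall x R, rho m ν z ^ (1 - 1 / N) ∂m := by
  have hS := h.std
  have hN : 1 < N := hS.one_lt_N
  have hα0 : 0 ≤ 1 - 1 / N := by
    have : 1 / N ≤ 1 := by
      rw [div_le_one (by linarith)]
      linarith
    linarith
  have hα1 : 1 - 1 / N ≤ 1 := by
    have : 0 ≤ 1 / N := by positivity
    linarith
  obtain ⟨hνm, hν0, hνM, -⟩ := lp_rho_nu hS hν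
  rw [lp_integral_nu hS hν, lp_integral_mu h]
  obtain ⟨G, hG⟩ := (isCompact_closedBall x R).exists_bound_of_continuousOn (lp_g_continuous h).continuousOn
  obtain ⟨C0, hC0⟩ := (isCompact_closedBall x R).exists_bound_of_continuousOn
    ((lp_cont_rpow h (N / (N - 1))).div_const (lp_V m N η ε x R)).continuousOn
  have hG' : ∀ z ∈ Metric.closedBall x R, |lp_g m N η ε x R z| ≤ G := fun z hz => by
    simpa [Real.norm_eq_abs] using hG z hz
  have hρ0 : ∀ z ∈ Metric.closedBall x R, lp_rho m N η ε x R z ≤ C0 := by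
    intro z hz
    have h1 := hC0 z hz
    rw [Real.norm_eq_abs] at h1
    have e : lp_rho m N η ε x R z = (η z + ε) ^ (N / (N - 1)) / lp_V m N η ε x R := by
      unfold lp_rho
      exact Set.indicator_of_mem hz _
    rw [e]
    exact (le_abs_self _).trans h1
  have hgm : Measurable (lp_g m N η ε x R) := (lp_g_continuous h).measurable
  have hρm : Measurable (lp_rho m N η ε x R) := lp_rho_measurable h
  have i1 : IntegrableOn (fun z => lp_g m N η ε x R z * rho m ν z) (Metric.closedBall x R) m := by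
    refine lp_integrableOn_of_bdd hS (hgm.mul hνm).aestronglyMeasurable (C := G * M') ?_
    filter_upwards [hνM] with z hz hzB
    rw [abs_mul, abs_of_nonneg (hν0 z)]
    exact mul_le_mul (hG' z hzB) hz (hν0 z) ((abs_nonneg _).trans (hG' z hzB))
  have i2 : IntegrableOn (fun z => lp_g m N η ε x R z * lp_rho m N η ε x R z) (Metric.closedBall x R) m := by
    refine lp_integrableOn_of_bdd hS (hgm.mul hρm).aestronglyMeasurable (C := G * C0) ?_
    refine Filter.Eventually.of_forall (fun z hzB => ?_)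
    rw [abs_mul, abs_of_nonneg (lp_rho_nonneg h z)]
    exact mul_le_mul (hG' z hzB) (hρ0 z hzB) (lp_rho_nonneg h z) ((abs_nonneg _).trans (hG' z hzB))
  have i3 : IntegrableOn (fun z => lp_rho m N η ε x R z ^ (1 - 1 / N)) (Metric.closedBall x R) m := by
    refine lp_integrableOn_of_bdd hS (hρm.pow_const _).aestronglyMeasurable (C := C0 ^ (1 - 1 / N)) ?_
    refine Filter.Eventually.of_forall (fun z hzB => ?_)
    rw [abs_of_nonneg (Real.rpow_nonneg (lp_rho_nonneg h z) _)]
    exact Real.rpow_le_rpow (lp_rho_nonneg h z) (hρ0 z hzB) hα0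
  have i4 : IntegrableOn (fun z => rho m ν z ^ (1 - 1 / N)) (Metric.closedBall x R) m := by
    refine lp_integrableOn_of_bdd hS (hνm.pow_const _).aestronglyMeasurable (C := (M' : ℝ) ^ (1 - 1 / N)) ?_
    filter_upwards [hνM] with z hz _
    rw [abs_of_nonneg (Real.rpow_nonneg (hν0 z) _)]
    exact Real.rpow_le_rpow (hν0 z) hz hα0
  rw [← integral_sub i1 i2, ← integral_sub i3 i4]
  refine setIntegral_mono_on (i1.sub i2) (i3.sub i4) Metric.isClosed_closedBall.measurableSet ?_
  intro z hz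
  have ht := lp_tangent hα0 hα1 (lp_rho_pos h hz) (hν0 z)
  rw [lp_g_eq h hz]
  nlinarith [ht]

end Claimed.Agent.R210.LP.Renyi
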