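/-
Row 210 (S0432), layer LP (Laplacian comparison), file 3: the hypotheses of FO1 for `a = wfun x`, and the uniform density bound.
Architect of the layer: helper785.  Notation and the whole proof: header of LP/Setup.lean.
-/
import Claimed.Agent.R210.LP.Setup

set_option autoImplicit false
set_option linter.unusedSectionVars false

open Claims.C0366 Claims.C0366.WeakHessian
open Set Filter MeasureTheory
open scoped ENNReal NNReal Topology

namespace Claimed.Agent.R210.LP.Transport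

open Claimed.Agent.R210.Defs Claimed.Agent.R210.CO.Ifc Claimed.Agent.R210.LP.Need Claimed.Agent.R210.LP.Setup

variable {X : Type*} [MetricSpace X] [MeasurableSpace X] [BorelSpace X] [ProperSpace X]
variable {m : Measure X} {K N : ℝ} {η : X → ℝ} {ε : ℝ} {x : X} {R : ℝ}

theorem lp_Wsq_nonneg (m : Measure X) (N : ℝ) (η : X → ℝ) (ε : ℝ) (x : X) (R : ℝ) : 0 ≤ lp_Wsq m N η ε x R :=
  integral_nonneg fun _ => sq_nonneg _

/-- `z ↦ d(z,x)²` is `μ`-integrable if `μ` is a finite measure concentrated on `B` (bounded by `R²` a.e.) -/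
theorem lp_integrable_dist_sq {μ : Measure X} {M : ℝ≥0} (hμ : BddDens m μ M x R) :
    Integrable (fun z => dist z x ^ 2) μ := by
  have := hμ.prob
  have hae : ∀ᵐ z ∂μ, z ∈ Metric.closedBall x R := by
    rw [ae_iff]
    exact hμ.conc
  refine Integrable.of_bound (C := R ^ 2)
    ((continuous_id.dist continuous_const).pow 2).aestronglyMeasurable ?_
  filter_upwards [hae] with z hz
  rw [Real.norm_eq_abs, abs_of_nonneg (sq_nonneg _)]
  exact pow_le_pow_left₀ dist_nonneg (Metric.mem_closedBall.1 hz) 2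

/-- `∫ |D w_x|² dμ0 ≤ W²`: `lp_need_wfun`, `lp_need_grad_nonneg`, `μ0 ≪ m`, `integral_mono_of_nonneg`, `lp_integrable_dist_sq`. -/
theorem lp_gradW (h : lp_Hyp m K N η ε x R) :
    ∫ z, (weakGradient m (wfun x) z) ^ 2 ∂(lp_mu m N η ε x R) ≤ lp_Wsq m N η ε x R := by
  obtain ⟨M0, hM0⟩ := lp_bdd0 h
  have hac : lp_mu m N η ε x R ≪ m := withDensity_absolutelyContinuous _ _
  unfold lp_Wsq
  refine integral_mono_of_nonneg (Eventually.of_forall fun _ => sq_nonneg _) (lp_integrable_dist_sq hM0) ?_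
  filter_upwards [hac.ae_le (lp_need_wfun h.std x).2, hac.ae_le (lp_need_grad_nonneg m (wfun x))] with z h1 h2
  exact pow_le_pow_left₀ h2 h1 2

/-- `W2sqR μ0 ν ≤ s² W²`: `W2sq μ0 ν ≤ QuadraticTransportCost Λ = ∫⁻ ofReal (s² d(p.1,x)²) dΛ = ofReal (s² W²)`
(`iInf₂_le`; `edist = ofReal dist`; first marginal of `Λ` is `μ0`: `lintegral_map`; `ofReal_integral_eq_lintegral_ofReal`). General probability `μ0`. -/
theorem lp_W2_le {μ0 ν : Measure X} {M : ℝ≥0} (hμ : BddDens m μ0 M x R) {Λ : Measure (X × X)} {s : ℝ} (hs : 0 ≤ s)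
    (hΛ : IsCoupling Λ μ0 ν) (hd : ∀ᵐ p ∂Λ, dist p.1 p.2 = s * dist p.1 x ∧ dist p.2 x = (1 - s) * dist p.1 x) :
    W2sqR μ0 ν ≤ s ^ 2 * ∫ z, dist z x ^ 2 ∂μ0 := by
  have hint : Integrable (fun z => s ^ 2 * dist z x ^ 2) μ0 := (lp_integrable_dist_sq hμ).const_mul _
  have hmeas : Measurable (fun z : X => ENNReal.ofReal (s ^ 2 * dist z x ^ 2)) := by fun_prop
  have h1 : W2sq μ0 ν ≤ QuadraticTransportCost Λ := iInf₂_le Λ hΛ
  have h2 : QuadraticTransportCost Λ = ∫⁻ p, ENNReal.ofReal (s ^ 2 * dist p.1 x ^ 2) ∂Λ := by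
    unfold QuadraticTransportCost
    refine lintegral_congr_ae ?_
    filter_upwards [hd] with p hp
    rw [edist_dist, hp.1, ← ENNReal.ofReal_pow (mul_nonneg hs dist_nonneg), mul_pow]
  have h3 : ∫⁻ p, ENNReal.ofReal (s ^ 2 * dist p.1 x ^ 2) ∂Λ = ∫⁻ z, ENNReal.ofReal (s ^ 2 * dist z x ^ 2) ∂μ0 := by
    rw [← hΛ.1, lintegral_map hmeas measurable_fst]
  have h4 : ∫⁻ z, ENNReal.ofReal (s ^ 2 * dist z x ^ 2) ∂μ0 = ENNReal.ofReal (∫ z, s ^ 2 * dist z x ^ 2 ∂μ0) :=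
    (ofReal_integral_eq_lintegral_ofReal hint (Eventually.of_forall fun z => by positivity)).symm
  have h5 : 0 ≤ ∫ z, s ^ 2 * dist z x ^ 2 ∂μ0 := integral_nonneg fun z => by positivity
  rw [h2, h3, h4] at h1
  have h6 := ENNReal.toReal_mono ENNReal.ofReal_ne_top h1
  rw [ENNReal.toReal_ofReal h5, integral_const_mul] at h6
  exact h6

/-- `∫ w dμ0 - ∫ w dν = (s - s²/2) W²`: `∫ w dν = ∫ w(p.2) dΛ = (1-s)²/2 ∫ d(p.1,x)² dΛ = (1-s)²/2 W²` (`integral_map` for both marginals). -/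
theorem lp_wdiff {μ0 ν : Measure X} {M : ℝ≥0} (hμ : BddDens m μ0 M x R) {Λ : Measure (X × X)} {s : ℝ}
    (hΛ : IsCoupling Λ μ0 ν) (hd : ∀ᵐ p ∂Λ, dist p.1 p.2 = s * dist p.1 x ∧ dist p.2 x = (1 - s) * dist p.1 x) :
    ∫ z, wfun x z ∂μ0 - ∫ z, wfun x z ∂ν = (s - s ^ 2 / 2) * ∫ z, dist z x ^ 2 ∂μ0 := by
  have hc : Continuous (fun z : X => dist z x ^ 2) := by fun_prop
  have hw : Continuous (wfun x) := by
    unfold wfun
    fun_prop
  have h1 : ∫ z, wfun x z ∂μ0 = 1 / 2 * ∫ z, dist z x ^ 2 ∂μ0 := by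
    rw [← integral_const_mul]
    refine integral_congr_ae (Eventually.of_forall fun z => ?_)
    simp only [wfun]
    ring
  have h2 : ∫ z, wfun x z ∂ν = ∫ p, wfun x p.2 ∂Λ := by
    rw [← hΛ.2, integral_map measurable_snd.aemeasurable hw.aestronglyMeasurable]
  have h3 : ∫ p, wfun x p.2 ∂Λ = ∫ p, (1 - s) ^ 2 / 2 * dist p.1 x ^ 2 ∂Λ := by
    refine integral_congr_ae ?_
    filter_upwards [hd] with p hp
    simp only [wfun]
    rw [hp.2]
    ring
  have h4 : ∫ p, (1 - s) ^ 2 / 2 * dist p.1 x ^ 2 ∂Λ = (1 - s) ^ 2 / 2 * ∫ z, dist z x ^ 2 ∂μ0 := by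
    rw [integral_const_mul, ← hΛ.1, integral_map measurable_fst.aemeasurable hc.aestronglyMeasurable]
  rw [h1, h2, h3, h4]
  ring

/-- monotonicity of `BddDens` in the constant -/
theorem lp_bdd_mono {μ : Measure X} {M M' : ℝ≥0} (hμ : BddDens m μ M x R) (hM : M ≤ M') : BddDens m μ M' x R := by
  refine ⟨hμ.prob, hμ.le.trans ?_, hμ.conc⟩
  intro s
  simp only [Measure.smul_apply, smul_eq_mul]
  exact mul_le_mul_left (ENNReal.coe_le_coe.2 hM) _

/-- uniform bound of the GM5 constant for `s ≤ 1/2`: `co_tau_ge` gives `co_tau K N (1-s) (2R) ≥ (1-s) e^{-s 2 R k} ≥ e^{-R k}/2`. -/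
theorem lp_unif (hK : K < 0) (hN : 1 < N) (hR : 0 < R) (M0 : ℝ≥0) {s : ℝ} (hs0 : 0 < s) (hs1 : s ≤ 1 / 2) :
    Real.toNNReal ((M0 : ℝ) / co_tau K N (1 - s) (2 * R) ^ N)
      ≤ Real.toNNReal ((M0 : ℝ) / (Real.exp (-(R * co_k K N)) / 2) ^ N) := by
  have hk := co_k_pos hK hN
  have h1 := co_tau_ge hK hN (t := 1 - s) (θ := 2 * R) (by linarith) (by linarith) (by linarith)
  have h2 : Real.exp (-(R * co_k K N)) / 2 ≤ (1 - s) * Real.exp (-((1 - (1 - s)) * (2 * R * co_k K N))) := by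
    have e1 : Real.exp (-(R * co_k K N)) ≤ Real.exp (-((1 - (1 - s)) * (2 * R * co_k K N))) := by
      apply Real.exp_le_exp.2
      have : 0 ≤ R * co_k K N := (mul_pos hR hk).le
      nlinarith
    have e2 : 0 < Real.exp (-((1 - (1 - s)) * (2 * R * co_k K N))) := Real.exp_pos _
    nlinarith
  have h3 : 0 < Real.exp (-(R * co_k K N)) / 2 := by positivity
  apply Real.toNNReal_le_toNNReal
  apply div_le_div_of_nonneg_left M0.2 (Real.rpow_pos_of_pos h3 _)
  exact Real.rpow_le_rpow h3.le (h2.trans h1) (by linarith)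

end Claimed.Agent.R210.LP.Transport
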