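/-
Row 210 (S0432), layer LP (Laplacian comparison), file 5: the inequality for fixed `ε` and `R`.
Architect of the layer: helper785.  Notation and the whole proof: header of LP/Setup.lean.
-/
import Claimed.Agent.R210.LP.Renyi
import Claimed.Agent.R210.LP.Transport
import Claimed.Agent.R210.LP.Chain

set_option autoImplicit false
set_option linter.unusedSectionVars false

open Claims.C0366 Claims.C0366.WeakHessian
open Set Filter MeasureTheory
open scoped ENNReal NNReal Topology

namespace Claimed.Agent.R210.LP.Eps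

open Claimed.Agent.R210.Defs Claimed.Agent.R210.CO.Ifc Claimed.Agent.R210.LP.Need Claimed.Agent.R210.LP.Setup
open Claimed.Agent.R210.LP.Renyi Claimed.Agent.R210.LP.Transport Claimed.Agent.R210.LP.Chain

variable {X : Type*} [MetricSpace X] [MeasurableSpace X] [BorelSpace X] [ProperSpace X]
variable {m : Measure X} {K N : ℝ} {η : X → ℝ} {ε : ℝ} {x : X} {R : ℝ}

/-- `∫_B (1 + k d_x) ρ0^α = V^{-α} ∫_B (1 + k d_x)(η + ε)` -/
theorem lp_B_eq (h : lp_Hyp m K N η ε x R) :
    ∫ z in Metric.closedBall x R, (1 + co_k K N * dist z x) * lp_rho m N η ε x R z ^ (1 - 1 / N) ∂m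
      = lp_V m N η ε x R ^ (-(1 - 1 / N)) * ∫ z in Metric.closedBall x R, (1 + co_k K N * dist z x) * (η z + ε) ∂m := by
  rw [← integral_const_mul]
  refine setIntegral_congr_fun measurableSet_closedBall fun z hz => ?_
  rw [lp_rho_rpow h hz]
  ring

/-- the inequality before division by `V^{-α}` -/
theorem lp_pre (h : lp_Hyp m K N η ε x R) :
    -(∫ z, gamma m (lp_g m N η ε x R) (wfun x) z ∂(lp_mu m N η ε x R))
      ≤ ∫ z in Metric.closedBall x R, (1 + co_k K N * dist z x) * lp_rho m N η ε x R z ^ (1 - 1 / N) ∂m := by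
  have hS := h.std
  obtain ⟨M0, h0⟩ := lp_bdd0 h
  have hs0 : ∀ n : ℕ, (0 : ℝ) < 1 / ((n : ℝ) + 2) := fun n => by positivity
  have hs1 : ∀ n : ℕ, 1 / ((n : ℝ) + 2) ≤ 1 / 2 := fun n => by
    apply one_div_le_one_div_of_le (by norm_num)
    have : (0 : ℝ) ≤ n := Nat.cast_nonneg n
    linarith
  have hs : Tendsto (fun n : ℕ => 1 / ((n : ℝ) + 2)) atTop (𝓝 0) := by
    have := tendsto_one_div_add_atTop_nhds_zero_nat (𝕜 := ℝ)
    have h2 := this.comp (tendsto_add_atTop_nat 1)
    refine h2.congr fun n => ?_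
    simp only [Function.comp]
    push_cast
    ring_nf
  choose ν Λ hν hΛ hd hren using fun n : ℕ => lp_need_GM5 hS h.R_pos h0 (hs0 n) (hs1 n)
  have hν' := fun n => lp_bdd_mono (hν n) (lp_unif hS.K_neg hS.one_lt_N h.R_pos M0 (hs0 n) (hs1 n))
  have hWsq : Real.sqrt (lp_Wsq m N η ε x R) ^ 2 = lp_Wsq m N η ε x R := Real.sq_sqrt (lp_Wsq_nonneg m N η ε x R)
  refine lp_need_FO1 hS h0 (lp_need_wfun hS x).1 (lp_g_chain h).1 (Real.sqrt_nonneg (lp_Wsq m N η ε x R))
    (by rw [hWsq]; exact lp_gradW h) hs0 hs hν' (fun n => ?_) (fun n => ?_) (fun n => ?_)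
  · rw [hWsq]
    exact lp_W2_le h0 (hs0 n).le (hΛ n) (hd n)
  · rw [hWsq]
    exact (lp_wdiff h0 (hΛ n) (hd n)).ge
  · rw [div_le_iff₀ (hs0 n), mul_comm]
    exact (lp_convex h (hν' n)).trans (lp_renyi h (hs0 n) (hs1 n) (hν' n) (hren n))

/-- **the `ε`-step** -/
theorem lp_eps (h : lp_Hyp m K N η ε x R) :
    -(∫ z in Metric.closedBall x R, gamma m η (wfun x) z ∂m)
      ≤ N * ∫ z in Metric.closedBall x R, (1 + co_k K N * dist z x) * (η z + ε) ∂m := by
  have hN : 0 < N := by linarith [h.std.one_lt_N]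
  have hV : 0 < lp_V m N η ε x R ^ (-(1 - 1 / N)) := Real.rpow_pos_of_pos (lp_V_pos h) _
  have key := lp_pre h
  rw [lp_chain h, lp_B_eq h] at key
  set c := lp_V m N η ε x R ^ (-(1 - 1 / N)) with hc
  set I := ∫ z in Metric.closedBall x R, gamma m η (wfun x) z ∂m with hI
  set J := ∫ z in Metric.closedBall x R, (1 + co_k K N * dist z x) * (η z + ε) ∂m with hJ
  have e : c * (-I) ≤ c * (N * J) := by
    have : -(c / N * I) * N ≤ c * J * N := mul_le_mul_of_nonneg_right key hN.le
    have e1 : -(c / N * I) * N = c * (-I) := by field_simp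
    rw [e1] at this
    linarith
  exact le_of_mul_le_mul_left e hV

end Claimed.Agent.R210.LP.Eps
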