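/-
Row 210 (S0432), layer LP (Laplacian comparison): INTERFACE.   Architect of the layer: helper785.  Consumers import this file only.

`k = co_k K N = sqrt (-K/(N-1))`, `wfun x = d(.,x)²/2`.
* `lp_main`  : `η ∈ LipC`, `η ≥ 0` ⟹ `-(N ∫ (1 + k d(.,x)) η dm) ≤ ∫ Γ(η, wfun x) dm`
* `lp_const` : if moreover `η = 0` outside `closedBall x R`: `-(N (1 + k R) ∫ η dm) ≤ ∫ Γ(η, wfun x) dm`
* `lp_gamma_integrable'` : `Γ(η, wfun x)` is integrable.
(The sharp coefficient `c(θ) = 1/N + ((N-1)/N) θ k coth (θ k) ≤ 1 + k θ` of the contract is not needed by TF5, P3.)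
-/
import Claimed.Agent.R210.LP.Eps

set_option autoImplicit false
set_option linter.unusedSectionVars false

open Claims.C0366 Claims.C0366.WeakHessian
open Set Filter MeasureTheory
open scoped ENNReal NNReal Topology

namespace Claimed.Agent.R210.LP.Ifc

open Claimed.Agent.R210.Defs Claimed.Agent.R210.CO.Ifc Claimed.Agent.R210.LP.Need Claimed.Agent.R210.LP.Setup
open Claimed.Agent.R210.LP.Renyi Claimed.Agent.R210.LP.Transport Claimed.Agent.R210.LP.Chain Claimed.Agent.R210.LP.Eps

variable {X : Type*} [MetricSpace X] [MeasurableSpace X] [BorelSpace X] [ProperSpace X]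
variable {m : Measure X} {K N : ℝ} {η : X → ℝ}

/-- a compactly supported function vanishes outside a closed ball of positive radius around `x` -/
theorem lp_exists_R (hη : LipC η) (x : X) : ∃ R : ℝ, 0 < R ∧ ∀ z, R < dist z x → η z = 0 := by
  obtain ⟨R, hR⟩ := hη.2.isCompact.isBounded.subset_closedBall x
  refine ⟨max R 1, lt_of_lt_of_le one_pos (le_max_right _ _), fun z hz => ?_⟩
  by_contra hne
  have hmem : z ∈ tsupport η := subset_tsupport _ (Function.mem_support.2 hne)
  have := Metric.mem_closedBall.1 (hR hmem)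
  exact absurd hz (not_lt.2 (this.trans (le_max_left _ _)))

/-- `m` is finite on compact sets -/
theorem lp_finiteOnCompacts (hS : Std m K N) : IsFiniteMeasureOnCompacts m :=
  ⟨fun _ hK => hS.finite _ hK.isBounded⟩

/-- continuous functions are integrable on closed balls -/
theorem lp_cont_integrableOn (hS : Std m K N) {f : X → ℝ} (hf : Continuous f) (x : X) (R : ℝ) :
    IntegrableOn f (Metric.closedBall x R) m := by
  have := lp_finiteOnCompacts hS
  exact hf.continuousOn.integrableOn_compact (isCompact_closedBall x R)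

/-- `∫_B (1 + k d_x)(η + ε) = ∫ (1 + k d_x) η + ε ∫_B (1 + k d_x)` if `η = 0` outside `B` -/
theorem lp_split (hS : Std m K N) (hη : LipC η) (x : X) {R : ℝ} (hR : ∀ z, R < dist z x → η z = 0) (ε : ℝ) :
    ∫ z in Metric.closedBall x R, (1 + co_k K N * dist z x) * (η z + ε) ∂m
      = ∫ z, (1 + co_k K N * dist z x) * η z ∂m + ε * ∫ z in Metric.closedBall x R, (1 + co_k K N * dist z x) ∂m := by
  have hc1 : Continuous fun z : X => 1 + co_k K N * dist z x := by fun_prop
  have hc2 : Continuous fun z : X => (1 + co_k K N * dist z x) * η z := hc1.mul (lp_continuous hη)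
  have e1 : ∫ z in Metric.closedBall x R, (1 + co_k K N * dist z x) * η z ∂m
      = ∫ z, (1 + co_k K N * dist z x) * η z ∂m := by
    apply setIntegral_eq_integral_of_forall_compl_eq_zero
    intro z hz
    have : R < dist z x := by
      simpa [Metric.mem_closedBall] using hz
    rw [hR z this, mul_zero]
  have e2 : ∀ z : X, (1 + co_k K N * dist z x) * (η z + ε)
      = (1 + co_k K N * dist z x) * η z + ε * (1 + co_k K N * dist z x) := fun z => by ring
  simp only [e2]
  rw [integral_add (lp_cont_integrableOn hS hc2 x R) ((lp_cont_integrableOn hS hc1 x R).const_mul ε),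
    integral_const_mul, e1]

/-- **LP1** (Laplacian comparison, non sharp coefficient) -/
theorem lp_main (hS : Std m K N) (x : X) (hη : LipC η) (hη0 : ∀ z, 0 ≤ η z) :
    -(N * ∫ z, (1 + co_k K N * dist z x) * η z ∂m) ≤ ∫ z, gamma m η (wfun x) z ∂m := by
  obtain ⟨R, hR0, hR⟩ := lp_exists_R hη x
  have hN : 0 < N := by linarith [hS.one_lt_N]
  have hk := co_k_pos hS.K_neg hS.one_lt_N
  set C := ∫ z in Metric.closedBall x R, (1 + co_k K N * dist z x) ∂m with hC
  have hC0 : 0 ≤ C := integral_nonneg fun z => by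
    have := mul_nonneg hk.le (dist_nonneg (x := z) (y := x))
    simp only [Pi.zero_apply]
    linarith
  have key : ∀ ε : ℝ, 0 < ε →
      -(∫ z, gamma m η (wfun x) z ∂m) ≤ N * ∫ z, (1 + co_k K N * dist z x) * η z ∂m + ε * (N * C) := by
    intro ε hε
    have h : lp_Hyp m K N η ε x R := ⟨hS, hη, hη0, hR0, hε⟩
    have e := lp_eps h
    rw [lp_setIntegral_gamma hS hη x hR, lp_split hS hη x hR ε] at e
    linarith
  have fin : -(∫ z, gamma m η (wfun x) z ∂m) ≤ N * ∫ z, (1 + co_k K N * dist z x) * η z ∂m := by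
    apply le_of_forall_pos_le_add
    intro δ hδ
    have hNC : 0 ≤ N * C := mul_nonneg hN.le hC0
    have := key (δ / (N * C + 1)) (by positivity)
    have e2 : δ / (N * C + 1) * (N * C) ≤ δ := by
      rw [div_mul_eq_mul_div, div_le_iff₀ (by positivity)]
      nlinarith
    linarith
  linarith

/-- **LP1 with a constant** -/
theorem lp_const (hS : Std m K N) (x : X) (hη : LipC η) (hη0 : ∀ z, 0 ≤ η z) {R : ℝ}
    (hR : ∀ z, R < dist z x → η z = 0) :
    -(N * (1 + co_k K N * R) * ∫ z, η z ∂m) ≤ ∫ z, gamma m η (wfun x) z ∂m := by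
  have := lp_finiteOnCompacts hS
  have hN : 0 < N := by linarith [hS.one_lt_N]
  have hk := co_k_pos hS.K_neg hS.one_lt_N
  have hc1 : Continuous fun z : X => 1 + co_k K N * dist z x := by fun_prop
  have hcη := lp_continuous hη
  have i1 : Integrable (fun z => (1 + co_k K N * dist z x) * η z) m :=
    (hc1.mul hcη).integrable_of_hasCompactSupport hη.2.mul_left
  have i2 : Integrable (fun z => (1 + co_k K N * R) * η z) m :=
    (hcη.integrable_of_hasCompactSupport hη.2).const_mul _
  have hle : ∫ z, (1 + co_k K N * dist z x) * η z ∂m ≤ (1 + co_k K N * R) * ∫ z, η z ∂m := by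
    rw [← integral_const_mul]
    apply integral_mono i1 i2
    intro z
    by_cases hz : R < dist z x
    · simp [hR z hz]
    · have hz' : dist z x ≤ R := not_lt.1 hz
      exact mul_le_mul_of_nonneg_right (by nlinarith) (hη0 z)
  have h1 := lp_main hS x hη hη0
  have h2 : N * ∫ z, (1 + co_k K N * dist z x) * η z ∂m ≤ N * ((1 + co_k K N * R) * ∫ z, η z ∂m) :=
    mul_le_mul_of_nonneg_left hle hN.le
  linarith

theorem lp_gamma_integrable' (hS : Std m K N) (hη : LipC η) (x : X) : Integrable (gamma m η (wfun x)) m :=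
  lp_gamma_integrable hS hη x

end Claimed.Agent.R210.LP.Ifc
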